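import Vale.Agent.P313.AC.SpecE

/-!
`BPL` is in logspace-uniform `AC^1`: the estimates with the parameters of `Good`, the base matrix
and the decision.
-/

namespace Vale.Agent.P313.AC

open Finset

/-- A set of numbers below `N * C` whose size is the sum of the numbers `v 0, …, v (N - 1)`. -/
def sset (N C : ℕ) (v : ℕ → ℕ) : Finset ℕ := {u ∈ range (N * C) | u % C < v (u / C)}

theorem card_sset {C : ℕ} (hC : 0 < C) (v : ℕ → ℕ) : ∀ N, (∀ k < N, v k ≤ C) →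
    #(sset N C v) = ∑ k ∈ range N, v k := by
  intro N
  induction N with
  | zero => intro _; simp [sset]
  | succ N ih =>
    intro h
    rw [sum_range_succ, ← ih (fun k hk => h k (by omega))]
    unfold sset
    rw [card_filter, card_filter, Nat.succ_mul, sum_range_add]
    congr 1
    have e : ∀ r ∈ range C, (if (N * C + r) % C < v ((N * C + r) / C) then 1 else 0) =
        if r < v N then 1 else 0 := by
      intro r hr
      have hr' := mem_range.1 hr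
      rw [mul_comm N C, Nat.mul_add_mod, Nat.mul_add_div hC, Nat.div_eq_of_lt hr',
        Nat.mod_eq_of_lt hr', add_zero]
    rw [sum_congr rfl e, ← card_filter]
    have e2 : {r ∈ range C | r < v N} = range (v N) := by
      ext r
      simp only [mem_filter, mem_range]
      have := h N (by omega)
      omega
    rw [e2, card_range]

/-- The estimate of the sum of the numbers `v 0, …, v (N - 1)` with precision `m`. -/
noncomputable def apE (p : Pr) (m : ℕ) (v : ℕ → ℕ) : ℕ :=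
  est p.P p.τ ((2 ^ p.b) ^ m) ((2 ^ p.b) ^ (2 * m + 1)) ((2 ^ p.b) ^ (4 * m + 3)) p.U
    (sset p.N p.C v)

theorem apE_acc (h4 : ModC4) {c κ j0 n : ℕ} {p : Pr} (hG : Good c κ j0 n p) (m : ℕ) (v : ℕ → ℕ)
    (_hm : 1 ≤ m) (hm2 : m ≤ p.tm + 3) (hv : ∀ k < p.N, v k ≤ 4 * p.Q ^ 2) :
    apE p m v ≤ ∑ k ∈ range p.N, v k ∧
    (∑ k ∈ range p.N, v k) * (2 ^ p.b) ^ m ≤
      apE p m v * (2 ^ p.b) ^ m + 2 * ∑ k ∈ range p.N, v k := by
  have hB : 16000 * (p.τ + 1) ≤ 2 ^ p.b := hG.hB2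
  have hB16 : 16 ≤ 2 ^ p.b := by omega
  have hcard : #(sset p.N p.C v) = ∑ k ∈ range p.N, v k := by
    apply card_sset (by unfold Pr.C; omega)
    intro k hk
    have := hv k hk
    unfold Pr.C
    omega
  rw [← hcard]
  unfold apE
  generalize hBd : 2 ^ p.b = B at hB hB16
  have hK := hG.hK
  rw [hBd] at hK
  apply h4 p.P p.τ (B ^ m) (B ^ (2 * m + 1)) (B ^ (4 * m + 3)) p.U _ hG.hP hG.hU
  · exact (Nat.pow_le_pow_right (by omega) (by omega)).trans hK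
  · exact Nat.one_le_pow _ _ (by omega)
  · exact hG.hτ
  · calc 16000 * (B ^ m) ^ 2 * (p.τ + 1) = (B ^ m) ^ 2 * (16000 * (p.τ + 1)) := by ring
      _ ≤ (B ^ m) ^ 2 * B := Nat.mul_le_mul_left _ hB
      _ = B ^ (2 * m + 1) := by ring
  · calc 16 * (B ^ (2 * m + 1)) ^ 2 ≤ B * (B ^ (2 * m + 1)) ^ 2 := Nat.mul_le_mul_right _ hB16
      _ = B ^ (4 * m + 3) := by ring
  · intro u hu
    unfold sset at hu
    exact mem_range.1 (mem_filter.1 hu).1

/-- The base matrix: `Q` times the one-step matrix of the mixed chain. -/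
def base (p : Pr) (nxt : ℕ → ℕ → ℕ) (x y : ℕ) : ℕ :=
  p.Q / 2 ^ (p.g0 + 1) * (2 ^ p.g0 - 1) *
    ((if nxt x 0 = y then 1 else 0) + (if nxt x 1 = y then 1 else 0)) + p.Q / (2 ^ p.g0 * p.N)

section good

variable {c κ j0 n : ℕ} {p : Pr}

theorem Good.N_pos (hG : Good c κ j0 n p) : 0 < p.N := by rw [hG.hN]; positivity

theorem Good.Q_pos (hG : Good c κ j0 n p) : 0 < p.Q := by
  have h1 := hG.hQ2
  have h2 := hG.N_pos
  have h3 : 0 < 2 * (2 ^ p.b) ^ p.tm * (2 ^ p.g0 * p.N) := by positivity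
  omega

theorem base_eq (hG : Good c κ j0 n p) (nxt : ℕ → ℕ → ℕ) (x y : ℕ) :
    (base p nxt x y : ℝ) = p.Q * gmx p.N p.g0 nxt x y := by
  obtain ⟨q, hq⟩ := hG.hQ1
  have hN := hG.N_pos
  have hN' : (0 : ℝ) < p.N := by exact_mod_cast hN
  have h1 : p.Q / 2 ^ (p.g0 + 1) = p.N * q := by
    rw [hq, mul_assoc, Nat.mul_div_cancel_left _ (by positivity)]
  have h2 : p.Q / (2 ^ p.g0 * p.N) = 2 * q := by
    rw [hq, show 2 ^ (p.g0 + 1) * p.N * q = 2 ^ p.g0 * p.N * (2 * q) by ring,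
      Nat.mul_div_cancel_left _ (by positivity)]
  have hp : (1 : ℕ) ≤ 2 ^ p.g0 := Nat.one_le_two_pow
  have hw : wp nxt 1 x y = ((if nxt x 0 = y then 1 else 0) + (if nxt x 1 = y then 1 else 0)) / 2 :=
    rfl
  unfold base gmx
  rw [h1, h2, hw]
  have hQ : (p.Q : ℝ) = 2 ^ (p.g0 + 1) * p.N * q := by exact_mod_cast hq
  rw [hQ]
  push_cast [Nat.cast_sub hp]
  have h2p : (0 : ℝ) < 2 ^ p.g0 := by positivity
  rw [pow_succ]
  field_simp

theorem Good.mu (hG : Good c κ j0 n p) :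
    2 * ((2 : ℝ) ^ p.b) ^ p.tm ≤ p.Q * (1 / 2 ^ p.g0 / p.N) := by
  have h := hG.hQ2
  have hN' : (0 : ℝ) < p.N := by exact_mod_cast hG.N_pos
  have h2p : (0 : ℝ) < 2 ^ p.g0 := by positivity
  have h' : 2 * ((2 : ℝ) ^ p.b) ^ p.tm * (2 ^ p.g0 * p.N) ≤ p.Q := by exact_mod_cast h
  rw [div_div, mul_one_div, le_div_iff₀ (by positivity)]
  exact h'

/-- The approximations. -/
noncomputable def AE (j0 : ℕ) (p : Pr) (nxt : ℕ → ℕ → ℕ) (l t x y : ℕ) : ℕ :=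
  AA p.b p.Q (p.f ^ j0) (apE p) (base p nxt) l t x y

variable {nxt : ℕ → ℕ → ℕ}

theorem AE_acc (h4 : ModC4) (hD : ModD) (hE2 : ModE2) (hG : Good c κ j0 n p)
    (hn : ∀ x < p.N, ∀ b, nxt x b < p.N) :
    ∀ l ≤ p.L, ∀ t, t0 p.b l ≤ t → t ≤ p.tm → ∀ x < p.N, ∀ y < p.N,
    |(AE j0 p nxt l t x y : ℝ) / p.Q - sqr p.N (gmx p.N p.g0 nxt) l x y| ≤
      4 ^ l / (2 ^ p.b) ^ t * sqr p.N (gmx p.N p.g0 nxt) l x y := by
  have hE := hE2 p.N p.L p.g0 nxt hG.N_pos hG.hg hn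
  have hN' : (0 : ℝ) < p.N := by exact_mod_cast hG.N_pos
  exact hD p.N p.Q p.b (p.f ^ j0) p.L p.tm (apE p) (base p nxt) (gmx p.N p.g0 nxt)
    (1 / 2 ^ p.g0 / p.N) hG.b1 hG.hB1 hG.hJ hG.htm (by positivity) hE.1 hE.2.1
    (fun x _ y _ => base_eq hG nxt x y) hG.mu
    (fun m v hm hm2 hv => apE_acc h4 hG m v hm hm2 hv)

theorem sqr_le_one' {N : ℕ} {G : ℕ → ℕ → ℝ} (h0 : ∀ x < N, ∀ y < N, 0 ≤ G x y)
    (h1 : ∀ x < N, ∑ y ∈ range N, G x y = 1) : ∀ l,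
    (∀ x < N, ∀ y < N, 0 ≤ sqr N G l x y) ∧ (∀ x < N, ∑ y ∈ range N, sqr N G l x y = 1) := by
  intro l
  induction l with
  | zero => exact ⟨h0, h1⟩
  | succ l ih =>
    refine ⟨fun x hx y hy => ?_, fun x hx => ?_⟩
    · exact sum_nonneg fun k hk => mul_nonneg (ih.1 x hx k (mem_range.1 hk))
        (ih.1 k (mem_range.1 hk) y hy)
    · show ∑ y ∈ range N, ∑ k ∈ range N, sqr N G l x k * sqr N G l k y = 1
      rw [sum_comm]
      have : ∀ k ∈ range N, ∑ y ∈ range N, sqr N G l x k * sqr N G l k y = sqr N G l x k := by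
        intro k hk
        rw [← mul_sum, ih.2 k (mem_range.1 hk), mul_one]
      rw [sum_congr rfl this]
      exact ih.2 x hx

/-- The digits are at most `2 Q`. -/
theorem AE_le (h4 : ModC4) (hD : ModD) (hE2 : ModE2) (hG : Good c κ j0 n p)
    (hn : ∀ x < p.N, ∀ b, nxt x b < p.N) {l t x y : ℕ} (hl : l ≤ p.L) (ht : t0 p.b l ≤ t)
    (ht2 : t ≤ p.tm) (hx : x < p.N) (hy : y < p.N) : AE j0 p nxt l t x y ≤ 2 * p.Q := by
  have h := AE_acc h4 hD hE2 hG hn l hl t ht ht2 x hx y hy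
  have hE := hE2 p.N p.L p.g0 nxt hG.N_pos hG.hg hn
  have hN' : (0 : ℝ) < p.N := by exact_mod_cast hG.N_pos
  have hQ' : (0 : ℝ) < p.Q := by exact_mod_cast hG.Q_pos
  have hs := sqr_le_one' (fun x hx y hy => le_trans (by positivity) (hE.1 x hx y hy)) hE.2.1 l
  have hs0 := hs.1 x hx y hy
  have hs1 : sqr p.N (gmx p.N p.g0 nxt) l x y ≤ 1 := by
    rw [← hs.2 x hx]
    exact single_le_sum (f := fun y => sqr p.N (gmx p.N p.g0 nxt) l x y)
      (fun i hi => hs.1 x hx i (mem_range.1 hi)) (mem_range.2 hy)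
  have hB : (4 : ℝ) ^ l ≤ (2 ^ p.b) ^ t := by
    have h1 : 2 * l ≤ p.b * t := by
      have h2 : 2 * l / p.b + 1 ≤ t := ht
      have h3 := Nat.lt_mul_div_succ (2 * l) hG.b1
      exact h3.le.trans (Nat.mul_le_mul_left _ h2)
    calc (4 : ℝ) ^ l = 2 ^ (2 * l) := by rw [pow_mul]; norm_num
      _ ≤ 2 ^ (p.b * t) := pow_le_pow_right₀ (by norm_num) h1
      _ = (2 ^ p.b) ^ t := by rw [pow_mul]
  have hf : (4 : ℝ) ^ l / (2 ^ p.b) ^ t ≤ 1 := by
    rw [div_le_one (by positivity)]; exact hB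
  have h5 : (4 : ℝ) ^ l / (2 ^ p.b) ^ t * sqr p.N (gmx p.N p.g0 nxt) l x y ≤ 1 := by
    have := mul_le_mul hf hs1 hs0 (by norm_num)
    linarith
  have h6 := (abs_le.1 h).2
  have h7 : (AE j0 p nxt l t x y : ℝ) / p.Q ≤ 2 := by linarith
  rw [div_le_iff₀ hQ'] at h7
  exact_mod_cast h7

/-- The absolute values of the digits are at most `2 Q`. -/
theorem dif_le (h4 : ModC4) (hD : ModD) (hE2 : ModE2) (hG : Good c κ j0 n p)
    (hn : ∀ x < p.N, ∀ b, nxt x b < p.N) {l i x y : ℕ} (hl : l ≤ p.L) (ht : t0 p.b l ≤ i)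
    (ht2 : i ≤ p.tm) (hx : x < p.N) (hy : y < p.N) :
    |dif p.b l (AE j0 p nxt l) i x y| ≤ 2 * p.Q := by
  have h1 := AE_le h4 hD hE2 hG hn (j0 := j0) hl ht ht2 hx hy
  unfold dif
  split_ifs with h
  · rw [abs_of_nonneg (by positivity)]
    exact_mod_cast h1
  · have h2 := AE_le h4 hD hE2 hG hn (j0 := j0) (t := i - 1) hl (by omega) (by omega) hx hy
    rw [abs_le]
    constructor <;> omega

/-- The products of digits are at most `4 Q ^ 2`. -/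
theorem prd_le (h4 : ModC4) (hD : ModD) (hE2 : ModE2) (hG : Good c κ j0 n p)
    (hn : ∀ x < p.N, ∀ b, nxt x b < p.N) {l i j x y k : ℕ} (sg : ℕ) (hl : l ≤ p.L)
    (hi : t0 p.b l ≤ i) (hi2 : i ≤ p.tm) (hj : t0 p.b l ≤ j) (hj2 : j ≤ p.tm)
    (hx : x < p.N) (hy : y < p.N) (hk : k < p.N) :
    prd p.b l (AE j0 p nxt l) sg i j x y k ≤ 4 * p.Q ^ 2 := by
  have h1 := dif_le h4 hD hE2 hG hn (j0 := j0) hl hi hi2 hx hk
  have h2 := dif_le h4 hD hE2 hG hn (j0 := j0) hl hj hj2 hk hy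
  have h3 : |dif p.b l (AE j0 p nxt l) i x k * dif p.b l (AE j0 p nxt l) j k y| ≤
      4 * (p.Q : ℤ) ^ 2 := by
    rw [abs_mul]
    calc _ ≤ (2 * (p.Q : ℤ)) * (2 * p.Q) := mul_le_mul h1 h2 (abs_nonneg _) (by positivity)
      _ = 4 * (p.Q : ℤ) ^ 2 := by ring
  have h4' := abs_le.1 h3
  unfold prd
  split_ifs
  · rw [Int.toNat_le]
    push_cast
    exact h4'.2
  · rw [Int.toNat_le]
    push_cast
    linarith [h4'.1]

/-- The decision. -/
theorem AE_dec (h4 : ModC4) (hD : ModD) (hE2 : ModE2) (hG : Good c κ j0 n p)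
    (hn : ∀ x < p.N, ∀ b, nxt x b < p.N) {st : ℕ} (hst : st < p.N) :
    (2 / 3 ≤ wp nxt (2 ^ (c * lam n)) st 0 → p.Q ≤ 2 * AE j0 p nxt p.L p.tm st 0) ∧
    (wp nxt (2 ^ (c * lam n)) st 0 ≤ 1 / 3 → ¬ p.Q ≤ 2 * AE j0 p nxt p.L p.tm st 0) := by
  have h := AE_acc h4 hD hE2 hG hn p.L le_rfl p.tm hG.htm le_rfl st hst 0 hG.N_pos
  have hE := hE2 p.N p.L p.g0 nxt hG.N_pos hG.hg hn
  have hN' : (0 : ℝ) < p.N := by exact_mod_cast hG.N_pos
  have hQ' : (0 : ℝ) < p.Q := by exact_mod_cast hG.Q_pos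
  have hs := sqr_le_one' (fun x hx y hy => le_trans (by positivity) (hE.1 x hx y hy)) hE.2.1 p.L
  have hs0 := hs.1 st hst 0 hG.N_pos
  have hs1 : sqr p.N (gmx p.N p.g0 nxt) p.L st 0 ≤ 1 := by
    rw [← hs.2 st hst]
    exact single_le_sum (f := fun y => sqr p.N (gmx p.N p.g0 nxt) p.L st y)
      (fun i hi => hs.1 st hst i (mem_range.1 hi)) (mem_range.2 hG.N_pos)
  have hf : (4 : ℝ) ^ p.L / (2 ^ p.b) ^ p.tm ≤ 1 / 100 := by
    rw [div_le_div_iff₀ (by positivity) (by norm_num)]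
    have := hG.hE
    have h' : 100 * (4 : ℝ) ^ p.L ≤ (2 ^ p.b) ^ p.tm := by exact_mod_cast this
    linarith
  have h5 : (4 : ℝ) ^ p.L / (2 ^ p.b) ^ p.tm * sqr p.N (gmx p.N p.g0 nxt) p.L st 0 ≤ 1 / 100 := by
    have := mul_le_mul hf hs1 hs0 (by norm_num)
    linarith
  have h6 := abs_le.1 (h.trans h5)
  have h7 := abs_le.1 (hE.2.2 st hst 0 hG.N_pos)
  have hL : p.L = c * lam n := hG.hL
  rw [← hL]
  refine ⟨fun h8 => ?_, fun h8 h9 => ?_⟩
  · have h9 : (1 : ℝ) / 2 ≤ (AE j0 p nxt p.L p.tm st 0 : ℝ) / p.Q := by linarith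
    rw [le_div_iff₀ hQ'] at h9
    have : (p.Q : ℝ) ≤ 2 * AE j0 p nxt p.L p.tm st 0 := by linarith
    exact_mod_cast this
  · have h9' : (p.Q : ℝ) ≤ 2 * AE j0 p nxt p.L p.tm st 0 := by exact_mod_cast h9
    have h10 : (1 : ℝ) / 2 ≤ (AE j0 p nxt p.L p.tm st 0 : ℝ) / p.Q := by
      rw [le_div_iff₀ hQ']; linarith
    linarith

end good

end Vale.Agent.P313.AC
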