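import Vale.Agent.P313.AC.SpecE

/-!
`BPL` is in logspace-uniform `AC^1`: the chain of a machine (module E).
-/

namespace Vale.Agent.P313.AC

open Finset RTM

variable {k : ℕ}

/-! ### The symbol under the head as a number -/

/-- An input of length `n` which has the symbol `s` in the cells where a bit is possible. -/
def dum (n s : ℕ) : List Bool := List.replicate n (decide (s = 3))

theorem dum_length (n s : ℕ) : (dum n s).length = n := List.length_replicate

theorem inSym_dum (n s p : ℕ) : inSym (dum n s) p =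
    if p = 0 then InSym.lmark else if p ≤ n then InSym.bit (decide (s = 3)) else InSym.rmark := by
  unfold inSym
  by_cases h : p = 0
  · rw [if_pos h, if_pos h]
  rw [if_neg h, if_neg h]
  by_cases h2 : p ≤ n
  · rw [if_pos h2]
    have : (dum n s)[p - 1]? = some (decide (s = 3)) := by
      unfold dum
      rw [List.getElem?_replicate, if_pos (by omega)]
    rw [this]
  · rw [if_neg h2]
    have : (dum n s)[p - 1]? = none := by
      unfold dum
      rw [List.getElem?_replicate, if_neg (by omega)]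
    rw [this]

theorem inSym_dum_symc (x : List Bool) (p : ℕ) :
    inSym (dum x.length (symc x p)) p = inSym x p := by
  rw [inSym_dum]
  unfold symc
  by_cases h : p = 0
  · rw [if_pos h]; unfold inSym; rw [if_pos h]
  rw [if_neg h]
  by_cases h2 : p ≤ x.length
  · rw [if_pos h2]
    have h3 : inSym x p = InSym.bit (x[p - 1]'(by omega)) := by
      unfold inSym
      rw [if_neg h, List.getElem?_eq_getElem (by omega)]
    rw [h3]
    cases x[p - 1]'(by omega) <;> rfl
  · rw [if_neg h2]
    unfold inSym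
    rw [if_neg h, List.getElem?_eq_none (by omega)]

theorem stepN_congr (M : RTM) {x y : List Bool} {W v : ℕ} (b : ℕ) (h1 : x.length = y.length)
    (h2 : inSym x (dg W v 1) = inSym y (dg W v 1)) : M.stepN x W v b = M.stepN y W v b := by
  unfold RTM.stepN RTM.nxd RTM.tbl RTM.keyI
  rw [h1, h2]

/-- One step of the machine, with the symbol under the head as a number. -/
noncomputable def stepS (M : RTM) (n s W v b : ℕ) : ℕ := M.stepN (dum n s) W v b

theorem stepS_eq (M : RTM) (x : List Bool) (W v b : ℕ) :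
    stepS M x.length (symc x (dg W v 1)) W v b = M.stepN x W v b := by
  unfold stepS
  exact stepN_congr M b (dum_length _ _) (inSym_dum_symc x _)

/-! ### Logarithmic space -/

theorem LFP.const' {p : Prop} : LFP (fun (_ : List Bool) (_ : Fin k → ℕ) => p) := by
  by_cases h : p
  · exact (LFP.eq (LF.const 0) (LF.const 0)).congr (fun x a => by simp [h])
  · exact (LFP.eq (LF.const 0) (LF.const 1)).congr (fun x a => by simp [h])

theorem lf_symS {n s p : Fn k} (hn : LF n) (hs : LF s) (hp : LF p) (t : InSym) :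
    LF (fun x a => (decide (inSym (dum (n x a) (s x a)) (p x a) = t)).toNat) := by
  have h : ∀ P : Prop, [Decidable P] → (decide P).toNat = if P then 1 else 0 := by
    intro P _
    by_cases hP : P <;> simp [hP]
  simp only [inSym_dum, h]
  have key : LFP (fun x a => (if p x a = 0 then InSym.lmark else
      if p x a ≤ n x a then InSym.bit (decide (s x a = 3)) else InSym.rmark) = t) := by
    cases t with
    | lmark =>
      refine (LFP.eq hp (LF.const 0)).congr (fun x a => ?_)
      split_ifs <;> simp_all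
    | rmark =>
      refine ((LFP.eq hp (LF.const 0)).not.and (LFP.le hp hn).not).congr (fun x a => ?_)
      split_ifs <;> simp_all
    | bit β =>
      cases β with
      | true =>
        refine (((LFP.eq hp (LF.const 0)).not.and (LFP.le hp hn)).and
          (LFP.eq hs (LF.const 3))).congr (fun x a => ?_)
        split_ifs <;> simp_all
      | false =>
        refine (((LFP.eq hp (LF.const 0)).not.and (LFP.le hp hn)).and
          (LFP.eq hs (LF.const 3)).not).congr (fun x a => ?_)
        split_ifs <;> simp_all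
  exact LF.toInd key

variable (M : RTM)

theorem lf_keyS {n s W v b : Fn k} (hn : LF n) (hs : LF s) (hW : LF W) (hv : LF v) (hb : LF b)
    (t : M.Key) :
    LF (fun x a => M.keyI (dum (n x a) (s x a)) (W x a) (v x a) (b x a) t) := by
  unfold RTM.keyI
  exact (((LF.eqi (hW.dg hv 0) (LF.const _)).mul (lf_symS hn hs (hW.dg hv 1) t.2.1)).mul
    (LF.finsetProd univ (fun i => LF.eqi (hW.dg hv _) (LF.const _)))).mul
    (LF.eqi hb (LF.const _))

theorem lf_tblS {n s W v b : Fn k} (hn : LF n) (hs : LF s) (hW : LF W) (hv : LF v) (hb : LF b)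
    (G : M.Key → ℕ) :
    LF (fun x a => M.tbl G (dum (n x a) (s x a)) (W x a) (v x a) (b x a)) := by
  unfold RTM.tbl
  exact LF.finsetSum univ (fun t => (lf_keyS M hn hs hW hv hb t).mul (LF.const _))

theorem lf_nxdS {n s W v b : Fn k} (hn : LF n) (hs : LF s) (hW : LF W) (hv : LF v) (hb : LF b)
    (j : ℕ) :
    LF (fun x a => M.nxd (dum (n x a) (s x a)) (W x a) (v x a) (b x a) j) := by
  unfold RTM.nxd
  by_cases h1 : j = 0
  · simp only [if_pos h1]
    exact lf_tblS M hn hs hW hv hb _
  simp only [if_neg h1]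
  by_cases h2 : j = 1
  · simp only [if_pos h2, dum_length]
    exact LF.dsel (lf_tblS M hn hs hW hv hb _) (hW.dg hv 1).pred (hW.dg hv 1)
      (LF.min (hW.dg hv 1).succ hn.succ)
  simp only [if_neg h2]
  by_cases h3 : j - 2 < M.tapes
  · simp only [dif_pos h3]
    exact LF.dsel (lf_tblS M hn hs hW hv hb _) ((hW.dg hv j).div (LF.const _)) (hW.dg hv j)
      ((lf_tblS M hn hs hW hv hb _).add ((LF.const _).mul (hW.dg hv j)))
  simp only [dif_neg h3]
  by_cases h4 : j - 2 - M.tapes < M.tapes
  · simp only [dif_pos h4]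
    exact LF.dsel (lf_tblS M hn hs hW hv hb _) ((hW.dg hv _).mod (LF.const _))
      (lf_tblS M hn hs hW hv hb _) ((hW.dg hv _).mod (LF.const _))
  simp only [dif_neg h4]
  by_cases h5 : j - 2 - M.tapes - M.tapes < M.tapes
  · simp only [dif_pos h5]
    exact LF.dsel (lf_tblS M hn hs hW hv hb _)
      ((lf_tblS M hn hs hW hv hb _).add ((LF.const _).mul (hW.dg hv j))) (hW.dg hv j)
      ((hW.dg hv j).div (LF.const _))
  simp only [dif_neg h5]
  exact LF.zero

theorem lf_stepS {n s W v b : Fn k} (hn : LF n) (hs : LF s) (hW : LF W) (hv : LF v)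
    (hb : LF b) :
    LF (fun x a => stepS M (n x a) (s x a) (W x a) (v x a) (b x a)) := by
  unfold stepS RTM.stepN
  exact LF.finsetSum (range M.nd) (fun j => (lf_nxdS M hn hs hW hv hb j).mul (hW.powConst j))

/-! ### The chain -/

/-- Radix of the codes of the configurations. -/
noncomputable def rW (c n : ℕ) : ℕ :=
  (n + 2) ^ ((Nat.log 2 M.g + 1) * c + 1) * M.g ^ (c + 1) + Fintype.card M.State + 2

theorem rW_eq (c : ℕ) (x : List Bool) : rW M c x.length = Sel.sW M c x := rfl

/-- The start of the chain. -/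
noncomputable def stE (c n : ℕ) : ℕ := M.mrg (rW M c n) (M.cQ M.start)

/-- The position of the input head. -/
noncomputable def psE (c n u : ℕ) : ℕ := dg (rW M c n) (u - 2) 1

/-- The chain. -/
noncomputable def nxE (c n s u b : ℕ) : ℕ :=
  if u < 2 then u else
    clp (rW M c n ^ M.nd + 2) (M.mrg (rW M c n) (stepS M n s (rW M c n) (u - 2) b))

theorem lf_rW {n : Fn k} (hn : LF n) (c : ℕ) : LF (fun x a => rW M c (n x a)) := by
  unfold rW
  exact ((((hn.add (LF.const 2)).powConst _).mul (LF.const _)).add (LF.const _)).add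
    (LF.const 2)

theorem nf_stE (c : ℕ) : NF (fun a : Fin 1 → ℕ => stE M c (a 0)) := by
  unfold NF stE
  exact M.lf_mrg (lf_rW M (LF.proj 0) c) (LF.const _)

theorem nf_psE (c : ℕ) : NF (fun a : Fin 2 → ℕ => psE M c (a 0) (a 1)) := by
  unfold NF psE
  exact (lf_rW M (LF.proj 0) c).dg ((LF.proj 1).sub (LF.const 2)) 1

theorem nf_nxE (c : ℕ) : NF (fun a : Fin 4 → ℕ => nxE M c (a 0) (a 1) (a 2) (a 3)) := by
  unfold NF nxE
  exact LF.ite (LFP.lt (LF.proj 2) (LF.const 2)) (LF.proj 2)
    (LF.clp (((lf_rW M (LF.proj 0) c).powConst _).add (LF.const 2))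
      (M.lf_mrg (lf_rW M (LF.proj 0) c)
        (lf_stepS M (LF.proj 0) (LF.proj 1) (lf_rW M (LF.proj 0) c)
          ((LF.proj 2).sub (LF.const 2)) (LF.proj 3))))

/-- The chain on the input `x`. -/
noncomputable def chE (c : ℕ) (x : List Bool) (u b : ℕ) : ℕ :=
  nxE M c x.length (symc x (psE M c x.length u)) u b

theorem chE_eq (c : ℕ) (x : List Bool) (u b : ℕ) : chE M c x u b =
    if u < 2 then u else clp (Sel.sW M c x ^ M.nd + 2)
      (M.mrg (Sel.sW M c x) (M.stepN x (Sel.sW M c x) (u - 2) b)) := by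
  unfold chE nxE psE
  rw [rW_eq, stepS_eq]

variable {M}

/-- The state of a configuration. -/
noncomputable def cdE (M : RTM) (W : ℕ) (c : M.Cfg) : ℕ := M.mrg W (M.enc W c)

theorem cdE_verdict {W : ℕ} {c : M.Cfg} (h : M.Small W c) {w : Bool}
    (hv : M.verdict c.state = some w) : cdE M W c = (!w).toNat := by
  have hk : M.kind c.state = if w = true then 3 else 2 := by
    unfold RTM.kind; rw [hv]; cases w <;> rfl
  unfold cdE RTM.mrg
  rw [M.kindN_enc h, hk]
  cases w <;> simp

theorem cdE_none {W : ℕ} {c : M.Cfg} (h : M.Small W c) (hv : M.verdict c.state = none) :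
    cdE M W c = M.enc W c + 2 := by
  have hk : M.kind c.state < 2 := by
    unfold RTM.kind; rw [hv]; simp only; split_ifs <;> omega
  unfold cdE RTM.mrg
  rw [M.kindN_enc h, if_neg (by omega), if_neg (by omega)]

theorem cdE_lt {W : ℕ} {c : M.Cfg} (h : M.Small W c) : cdE M W c < W ^ M.nd + 2 := by
  have h2 := M.enc_lt h
  unfold cdE RTM.mrg
  split_ifs <;> omega

theorem chE_step {d T : ℕ} {x : List Bool} (hF : M.Fit x (Sel.sW M d x) T) {t : ℕ} {c : M.Cfg}
    (hc : M.Rch x t c) (hv : M.verdict c.state = none) (b : Bool) :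
    chE M d x (cdE M (Sel.sW M d x) c) b.toNat = cdE M (Sel.sW M d x) (M.step x c b) := by
  rw [chE_eq, cdE_none (hF.small t c hc) hv, if_neg (by omega), Nat.add_sub_cancel,
    M.stepN_enc (hF.small t c hc)]
  have h2 := cdE_lt (hF.small _ _ (hc.step hv b))
  unfold cdE at h2 ⊢
  unfold RTM.clp
  rw [if_pos h2]

theorem wp_fix {nxt : ℕ → ℕ → ℕ} {u : ℕ} (h : ∀ b, nxt u b = u) (y : ℕ) :
    ∀ t, wp nxt t u y = if u = y then 1 else 0 := by
  intro t
  induction t with
  | zero => rfl
  | succ t ih => unfold wp; rw [h, h, ih]; ring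

theorem wp_cdE {d T : ℕ} {x : List Bool} (hF : M.Fit x (Sel.sW M d x) T) :
    ∀ (r t : ℕ) (c : M.Cfg), T ≤ t + r → M.Rch x t c → ∀ R, r ≤ R →
      wp (chE M d x) R (cdE M (Sel.sW M d x) c) 0 = ((M.probAt x true r 0 c : ℚ) : ℝ) := by
  have hhalt : ∀ (t : ℕ) (c : M.Cfg), M.Rch x t c → ∀ w, M.verdict c.state = some w →
      ∀ R r, wp (chE M d x) R (cdE M (Sel.sW M d x) c) 0 = ((M.probAt x true r 0 c : ℚ) : ℝ) := by
    intro t c hc w hw R r
    have h1 : cdE M (Sel.sW M d x) c = (!w).toNat := cdE_verdict (hF.small t c hc) hw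
    have h2 : (!w).toNat < 2 := by cases w <;> simp
    rw [h1, wp_fix (fun b => by rw [chE_eq, if_pos h2])]
    cases r with
    | zero => cases w <;> simp [RTM.probAt, hw]
    | succ r => cases w <;> simp [RTM.probAt, hw]
  intro r
  induction r with
  | zero =>
    intro t c ht hc R _
    obtain ⟨w, hw⟩ := Option.isSome_iff_exists.1 (hF.halt t c hc (by omega))
    exact hhalt t c hc w hw R 0
  | succ r ih =>
    intro t c ht hc R hR
    cases hv : M.verdict c.state with
    | some w => exact hhalt t c hc w hv R (r + 1)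
    | none =>
      obtain ⟨R', rfl⟩ : ∃ i, R = i + 1 := ⟨R - 1, by omega⟩
      have e0 : chE M d x (cdE M (Sel.sW M d x) c) 0 =
          cdE M (Sel.sW M d x) (M.step x c false) := chE_step hF hc hv false
      have e1 : chE M d x (cdE M (Sel.sW M d x) c) 1 =
          cdE M (Sel.sW M d x) (M.step x c true) := chE_step hF hc hv true
      have i0 := ih (t + 1) _ (by omega) (hc.step hv false) R' (by omega)
      have i1 := ih (t + 1) _ (by omega) (hc.step hv true) R' (by omega)
      show (wp (chE M d x) R' (chE M d x (cdE M (Sel.sW M d x) c) 0) 0 +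
        wp (chE M d x) R' (chE M d x (cdE M (Sel.sW M d x) c) 1) 0) / 2 = _
      rw [e0, e1, i0, i1]
      by_cases hcn : M.coin c.state = true
      · simp only [RTM.probAt, hv, hcn, if_true, Nat.zero_sub]
        push_cast
        ring
      · have hcf : M.coin c.state = false := by simpa using hcn
        have e : M.step x c true = M.step x c false := by
          unfold RTM.step; rw [hcf]; rfl
        rw [e]
        simp only [RTM.probAt, hv, hcf, Bool.false_eq_true, if_false]
        ring

/-! ### Sizes -/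

theorem one_le_lam (n : ℕ) : 1 ≤ lam n := by
  unfold lam
  exact Nat.log_pos (by norm_num) (by omega)

theorem le_two_pow_lam (n : ℕ) : n + 2 ≤ 2 ^ (2 * lam n) := by
  have h1 : n + 2 < 2 ^ (lam n + 1) := Nat.lt_pow_succ_log_self (by norm_num) _
  have h2 := one_le_lam n
  exact h1.le.trans (Nat.pow_le_pow_right (by norm_num) (by omega))

theorem pow_le_two_pow_lam (n e : ℕ) : (n + 2) ^ e ≤ 2 ^ (2 * e * lam n) := by
  calc (n + 2) ^ e ≤ (2 ^ (2 * lam n)) ^ e := Nat.pow_le_pow_left (le_two_pow_lam n) e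
    _ = 2 ^ (2 * e * lam n) := by rw [← pow_mul]; congr 1; ring

theorem le_pow_self (n m : ℕ) : m ≤ (n + 2) ^ m :=
  (Nat.lt_two_pow_self.le).trans (Nat.pow_le_pow_left (by omega) m)

theorem mul_add_le_pow {n X a k m : ℕ} (hX : X ≤ (n + 2) ^ a) :
    X * k + m ≤ (n + 2) ^ (a + k + m + 1) := by
  have h1 : k ≤ (n + 2) ^ k := le_pow_self n k
  have h2 : m + 1 ≤ (n + 2) ^ (m + 1) := le_pow_self n (m + 1)
  have h3 : 1 ≤ (n + 2) ^ a * (n + 2) ^ k := Nat.mul_pos (by positivity) (by positivity)
  calc X * k + m ≤ (n + 2) ^ a * (n + 2) ^ k + m := Nat.add_le_add_right (Nat.mul_le_mul hX h1) _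
    _ ≤ (n + 2) ^ a * (n + 2) ^ k * (m + 1) := by nlinarith
    _ ≤ (n + 2) ^ a * (n + 2) ^ k * (n + 2) ^ (m + 1) := Nat.mul_le_mul_left _ h2
    _ = (n + 2) ^ (a + k + m + 1) := by rw [← pow_add, ← pow_add]; congr 1

theorem exists_rW (M : RTM) (c : ℕ) : ∃ e, ∀ n, rW M c n ^ M.nd + 2 ≤ (n + 2) ^ e := by
  have h1 : ∀ n, rW M c n ≤ (n + 2) ^ ((Nat.log 2 M.g + 1) * c + 1 + M.g ^ (c + 1) +
      (Fintype.card M.State + 2) + 1) := by
    intro n
    unfold rW
    rw [add_assoc]
    exact mul_add_le_pow le_rfl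
  refine ⟨((Nat.log 2 M.g + 1) * c + 1 + M.g ^ (c + 1) +
      (Fintype.card M.State + 2) + 1) * M.nd + 1 + 2 + 1, fun n => ?_⟩
  have h2 : rW M c n ^ M.nd ≤ (n + 2) ^ (((Nat.log 2 M.g + 1) * c + 1 + M.g ^ (c + 1) +
      (Fintype.card M.State + 2) + 1) * M.nd) := by
    rw [pow_mul]
    exact Nat.pow_le_pow_left (h1 n) _
  have h3 := mul_add_le_pow (k := 1) (m := 2) h2
  rw [mul_one] at h3
  exact h3

/-- The chain of a machine. -/
theorem modE : ModE := by
  intro A hA
  obtain ⟨M, c, hB, hP⟩ := hA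
  obtain ⟨e, he⟩ := exists_rW M c
  have hsz : ∀ n, rW M c n ^ M.nd + 2 ≤ 2 ^ ((2 * e + 2 * c + 1) * lam n) := by
    intro n
    refine (he n).trans ((pow_le_two_pow_lam n e).trans ?_)
    apply Nat.pow_le_pow_right (by norm_num)
    exact Nat.mul_le_mul_right _ (by omega)
  have htm : ∀ n, (n + 2) ^ c ≤ 2 ^ ((2 * e + 2 * c + 1) * lam n) := by
    intro n
    refine (pow_le_two_pow_lam n c).trans ?_
    apply Nat.pow_le_pow_right (by norm_num)
    exact Nat.mul_le_mul_right _ (by omega)
  have hF : ∀ x, M.Fit x (Sel.sW M c x) (Sel.sT c x) :=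
    fun x => Sel.fit hB (fun n => Nat.le_add_right _ _) x
  have hst : ∀ x : List Bool, stE M c x.length = cdE M (Sel.sW M c x) M.init := by
    intro x
    unfold stE cdE
    rw [M.enc_init, rW_eq]
  refine ⟨2 * e + 2 * c + 1, stE M c, psE M c, nxE M c, by omega, nf_stE M c, nf_psE M c,
    nf_nxE M c, ?_, ?_, ?_⟩
  · intro n
    have h1 := hst (List.replicate n false)
    rw [List.length_replicate] at h1
    rw [h1]
    have h2 := cdE_lt ((hF (List.replicate n false)).small 0 M.init (M.rch_init _))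
    have h3 := hsz n
    have h4 : rW M c n = Sel.sW M c (List.replicate n false) := by
      rw [← rW_eq, List.length_replicate]
    rw [h4] at h3
    exact h2.trans_le h3
  · intro n s b u hu
    unfold nxE
    split_ifs with h
    · exact hu
    · have h1 : ∀ v, RTM.clp (rW M c n ^ M.nd + 2) v < rW M c n ^ M.nd + 2 := by
        intro v
        unfold RTM.clp
        split_ifs <;> omega
      exact (h1 _).trans_le (hsz n)
  · intro x
    have h1 : wp (chE M c x) (2 ^ ((2 * e + 2 * c + 1) * lam x.length)) (stE M c x.length) 0 =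
        ((M.probAt x true ((x.length + 2) ^ c) 0 M.init : ℚ) : ℝ) := by
      rw [hst x]
      exact wp_cdE (hF x) _ 0 _ (by unfold Sel.sT; omega) (M.rch_init x) _ (htm _)
    have h2 : (fun u b => nxE M c x.length (symc x (psE M c x.length u)) u b) = chE M c x := rfl
    rw [h2, h1]
    obtain ⟨p1, p2⟩ := hP x
    refine ⟨fun hx => ?_, fun hx => ?_⟩
    · have := p1 hx
      have h3 : (((2 / 3 : ℚ)) : ℝ) ≤ ((M.probAt x true ((x.length + 2) ^ c) 0 M.init : ℚ) : ℝ) :=
        by exact_mod_cast this
      push_cast at h3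
      exact h3
    · have := p2 hx
      have h3 : ((M.probAt x true ((x.length + 2) ^ c) 0 M.init : ℚ) : ℝ) ≤ (((1 / 3 : ℚ)) : ℝ) :=
        by exact_mod_cast this
      push_cast at h3
      exact h3

end Vale.Agent.P313.AC
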