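import Vale.Agent.P313.AC.Spec

/-!
`BPL` is in logspace-uniform `AC^1`: mixing a chain with the uniform distribution (module E2).
-/

namespace Vale.Agent.P313.AC

open Finset

section chain

variable {N : ℕ} {nxt : ℕ → ℕ → ℕ}

theorem wp_nonneg (nxt : ℕ → ℕ → ℕ) : ∀ t x y, 0 ≤ wp nxt t x y := by
  intro t
  induction t with
  | zero => intro x y; unfold wp; split_ifs <;> norm_num
  | succ t ih => intro x y; unfold wp; have := ih (nxt x 0) y; have := ih (nxt x 1) y; positivity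

theorem wp_sum (h : ∀ x < N, ∀ b, nxt x b < N) : ∀ t, ∀ x < N,
    ∑ y ∈ range N, wp nxt t x y = 1 := by
  intro t
  induction t with
  | zero =>
    intro x hx
    unfold wp
    rw [sum_ite_eq, if_pos (mem_range.2 hx)]
  | succ t ih =>
    intro x hx
    unfold wp
    rw [← sum_div, sum_add_distrib, ih _ (h x hx 0), ih _ (h x hx 1)]
    norm_num

/-- Chapman-Kolmogorov. -/
theorem wp_add (h : ∀ x < N, ∀ b, nxt x b < N) (t : ℕ) (y : ℕ) : ∀ s, ∀ x < N,
    wp nxt (s + t) x y = ∑ k ∈ range N, wp nxt s x k * wp nxt t k y := by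
  intro s
  induction s with
  | zero =>
    intro x hx
    rw [zero_add]
    have : ∀ k ∈ range N, wp nxt 0 x k * wp nxt t k y = if x = k then wp nxt t k y else 0 := by
      intro k _
      unfold wp
      split_ifs <;> simp
    rw [sum_congr rfl this, sum_ite_eq, if_pos (mem_range.2 hx)]
  | succ s ih =>
    intro x hx
    rw [Nat.succ_add]
    show (wp nxt (s + t) (nxt x 0) y + wp nxt (s + t) (nxt x 1) y) / 2 = _
    rw [ih _ (h x hx 0), ih _ (h x hx 1), ← sum_add_distrib, sum_div]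
    apply sum_congr rfl
    intro k _
    show _ = (wp nxt s (nxt x 0) k + wp nxt s (nxt x 1) k) / 2 * wp nxt t k y
    ring

variable {G : ℕ → ℕ → ℝ}

theorem sqr_nonneg (h : ∀ x < N, ∀ y < N, 0 ≤ G x y) : ∀ l, ∀ x < N, ∀ y < N,
    0 ≤ sqr N G l x y := by
  intro l
  induction l with
  | zero => exact h
  | succ l ih =>
    intro x hx y hy
    show 0 ≤ ∑ k ∈ range N, sqr N G l x k * sqr N G l k y
    apply sum_nonneg
    intro k hk
    exact mul_nonneg (ih x hx k (mem_range.1 hk)) (ih k (mem_range.1 hk) y hy)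

theorem sqr_sum (h : ∀ x < N, ∑ y ∈ range N, G x y = 1) : ∀ l, ∀ x < N,
    ∑ y ∈ range N, sqr N G l x y = 1 := by
  intro l
  induction l with
  | zero => exact h
  | succ l ih =>
    intro x hx
    show ∑ y ∈ range N, ∑ k ∈ range N, sqr N G l x k * sqr N G l k y = 1
    rw [sum_comm]
    have : ∀ k ∈ range N, ∑ y ∈ range N, sqr N G l x k * sqr N G l k y = sqr N G l x k := by
      intro k hk
      rw [← mul_sum, ih k (mem_range.1 hk), mul_one]
    rw [sum_congr rfl this]
    exact ih x hx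

/-- The distance of the powers grows at most by a factor two in a squaring. -/
theorem sqr_dist (h : ∀ x < N, ∀ b, nxt x b < N) (hG : ∀ x < N, ∀ y < N, 0 ≤ G x y)
    (hG1 : ∀ x < N, ∑ y ∈ range N, G x y = 1) {e : ℝ} (he : ∀ x < N,
      ∑ y ∈ range N, |G x y - wp nxt 1 x y| ≤ e) : ∀ l, ∀ x < N,
    ∑ y ∈ range N, |sqr N G l x y - wp nxt (2 ^ l) x y| ≤ 2 ^ l * e := by
  intro l
  induction l with
  | zero =>
    intro x hx
    rw [pow_zero, pow_zero, one_mul]
    exact he x hx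
  | succ l ih =>
    intro x hx
    have e1 : ∀ y, sqr N G (l + 1) x y - wp nxt (2 ^ (l + 1)) x y =
        ∑ k ∈ range N, (sqr N G l x k * (sqr N G l k y - wp nxt (2 ^ l) k y) +
          (sqr N G l x k - wp nxt (2 ^ l) x k) * wp nxt (2 ^ l) k y) := by
      intro y
      rw [show 2 ^ (l + 1) = 2 ^ l + 2 ^ l by ring, wp_add h (2 ^ l) y (2 ^ l) x hx]
      show (∑ k ∈ range N, sqr N G l x k * sqr N G l k y) - _ = _
      rw [← sum_sub_distrib]
      apply sum_congr rfl
      intro k _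
      ring
    have e2 : ∀ y, |sqr N G (l + 1) x y - wp nxt (2 ^ (l + 1)) x y| ≤
        ∑ k ∈ range N, (sqr N G l x k * |sqr N G l k y - wp nxt (2 ^ l) k y| +
          |sqr N G l x k - wp nxt (2 ^ l) x k| * wp nxt (2 ^ l) k y) := by
      intro y
      rw [e1]
      refine (abs_sum_le_sum_abs _ _).trans (sum_le_sum fun k hk => ?_)
      refine (abs_add_le _ _).trans (le_of_eq ?_)
      rw [abs_mul, abs_mul, abs_of_nonneg (sqr_nonneg hG l x hx k (mem_range.1 hk)),
        abs_of_nonneg (wp_nonneg nxt (2 ^ l) k y)]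
    calc ∑ y ∈ range N, |sqr N G (l + 1) x y - wp nxt (2 ^ (l + 1)) x y|
        ≤ ∑ y ∈ range N, ∑ k ∈ range N,
          (sqr N G l x k * |sqr N G l k y - wp nxt (2 ^ l) k y| +
            |sqr N G l x k - wp nxt (2 ^ l) x k| * wp nxt (2 ^ l) k y) :=
          sum_le_sum fun y _ => e2 y
      _ = ∑ k ∈ range N, (sqr N G l x k * ∑ y ∈ range N, |sqr N G l k y - wp nxt (2 ^ l) k y| +
            |sqr N G l x k - wp nxt (2 ^ l) x k| * ∑ y ∈ range N, wp nxt (2 ^ l) k y) := by
          rw [sum_comm]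
          apply sum_congr rfl
          intro k _
          rw [mul_sum, mul_sum, ← sum_add_distrib]
      _ ≤ ∑ k ∈ range N, (sqr N G l x k * (2 ^ l * e) +
            |sqr N G l x k - wp nxt (2 ^ l) x k| * 1) := by
          apply sum_le_sum
          intro k hk
          rw [wp_sum h _ k (mem_range.1 hk)]
          exact add_le_add (mul_le_mul_of_nonneg_left (ih k (mem_range.1 hk))
            (sqr_nonneg hG l x hx k (mem_range.1 hk))) le_rfl
      _ = 2 ^ l * e + ∑ k ∈ range N, |sqr N G l x k - wp nxt (2 ^ l) x k| := by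
          rw [sum_add_distrib, ← sum_mul, sqr_sum hG1 l x hx, one_mul]
          simp only [mul_one]
      _ ≤ 2 ^ l * e + 2 ^ l * e := add_le_add le_rfl (ih x hx)
      _ = 2 ^ (l + 1) * e := by ring

end chain

/-- Mixing with the uniform distribution. -/
theorem modE2 : ModE2 := by
  intro N L g0 nxt hN hg hn
  have hN' : (0 : ℝ) < N := by exact_mod_cast hN
  have hp : (1 : ℝ) ≤ 2 ^ g0 := one_le_pow₀ (by norm_num)
  have hp0 : (0 : ℝ) < 2 ^ g0 := by linarith
  have h01 : (1 : ℝ) / 2 ^ g0 ≤ 1 := by rw [div_le_one hp0]; exact hp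
  have h1 : ∀ x y, 1 / 2 ^ g0 / (N : ℝ) ≤ gmx N g0 nxt x y := by
    intro x y
    unfold gmx
    have := mul_nonneg (sub_nonneg.2 h01) (wp_nonneg nxt 1 x y)
    linarith
  have hpos : ∀ x < N, ∀ y < N, 0 ≤ gmx N g0 nxt x y := by
    intro x _ y _
    exact le_trans (by positivity) (h1 x y)
  have hsum : ∀ x < N, ∑ y ∈ range N, gmx N g0 nxt x y = 1 := by
    intro x hx
    unfold gmx
    rw [sum_add_distrib, ← mul_sum, wp_sum hn 1 x hx, sum_const, card_range, nsmul_eq_mul]
    field_simp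
    ring
  refine ⟨fun x _ y _ => h1 x y, hsum, ?_⟩
  have he : ∀ x < N, ∑ y ∈ range N, |gmx N g0 nxt x y - wp nxt 1 x y| ≤ 2 / 2 ^ g0 := by
    intro x hx
    have e1 : ∀ y, |gmx N g0 nxt x y - wp nxt 1 x y| ≤ 1 / 2 ^ g0 / N + 1 / 2 ^ g0 * wp nxt 1 x y := by
      intro y
      have e2 : gmx N g0 nxt x y - wp nxt 1 x y = 1 / 2 ^ g0 / N - 1 / 2 ^ g0 * wp nxt 1 x y := by
        unfold gmx; ring
      rw [e2]
      refine (abs_sub _ _).trans (le_of_eq ?_)
      rw [abs_of_nonneg (by positivity), abs_of_nonneg (mul_nonneg (by positivity) (wp_nonneg _ _ _ _))]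
    refine (sum_le_sum fun y _ => e1 y).trans (le_of_eq ?_)
    rw [sum_add_distrib, ← mul_sum, wp_sum hn 1 x hx, sum_const, card_range, nsmul_eq_mul]
    field_simp
    ring
  intro x hx y hy
  have h2 := sqr_dist hn hpos hsum he L x hx
  have h3 : |sqr N (gmx N g0 nxt) L x y - wp nxt (2 ^ L) x y| ≤
      ∑ y ∈ range N, |sqr N (gmx N g0 nxt) L x y - wp nxt (2 ^ L) x y| :=
    single_le_sum (f := fun y => |sqr N (gmx N g0 nxt) L x y - wp nxt (2 ^ L) x y|)
      (fun _ _ => abs_nonneg _) (mem_range.2 hy)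
  refine h3.trans (h2.trans ?_)
  have h4 : (2 : ℝ) ^ (L + 6) ≤ 2 ^ g0 := pow_le_pow_right₀ (by norm_num) hg
  rw [mul_div_assoc', div_le_div_iff₀ hp0 (by norm_num)]
  calc (2 : ℝ) ^ L * 2 * 32 = 2 ^ (L + 6) := by rw [pow_add]; norm_num; ring
    _ ≤ 2 ^ g0 := h4
    _ = 1 * 2 ^ g0 := (one_mul _).symm

end Vale.Agent.P313.AC
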