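import Vale.Agent.P313.AC.SpecA

/-!
`BPL` is in logspace-uniform `AC^1`: the depth of a circuit may be increased.
-/

namespace Vale.Agent.P313.AC

open Finset

theorem Circuit.val_stable (C : Circuit) {lev : ℕ → ℕ}
    (hl : ∀ g < C.size, ∀ h < C.size, C.wire g h → lev h < lev g) (x : List Bool) :
    ∀ d d' g, g < C.size → lev g < d → lev g < d' → (C.val x d g ↔ C.val x d' g) := by
  intro d
  induction d with
  | zero => intro d' g _ h; omega
  | succ d ih =>
    intro d' g hg h1 h2
    cases d' with
    | zero => omega
    | succ d' =>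
      unfold Circuit.val
      cases C.gate g with
      | input i => exact Iff.rfl
      | and =>
        refine forall_congr' fun h => forall_congr' fun hh => forall_congr' fun hw => ?_
        have := hl g hg h hh hw
        exact ih d' h hh (by omega) (by omega)
      | or =>
        refine exists_congr fun h => and_congr_right fun hh => and_congr_right fun hw => ?_
        have := hl g hg h hh hw
        exact ih d' h hh (by omega) (by omega)
      | nor =>
        refine forall_congr' fun h => forall_congr' fun hh => forall_congr' fun hw => ?_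
        have := hl g hg h hh hw
        exact not_congr (ih d' h hh (by omega) (by omega))

theorem UAC.mono {d d' : ℕ → ℕ} {A : Set (List Bool)} (K : ℕ) (h : ∀ n, d n ≤ K * d' n + K)
    (hA : UAC d A) : UAC d' A := by
  obtain ⟨C, c, h1, h2, h3⟩ := hA
  have hle : ∀ n, c * d n + c ≤ (c * K + c) * d' n + (c * K + c) := by
    intro n
    calc c * d n + c ≤ c * (K * d' n + K) + c := Nat.add_le_add_right (Nat.mul_le_mul_left _ (h n)) _
      _ = c * K * d' n + (c * K + c) := by ring
      _ ≤ (c * K + c) * d' n + (c * K + c) := by
        apply Nat.add_le_add_right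
        exact Nat.mul_le_mul_right _ (Nat.le_add_right _ _)
  refine ⟨C, c * K + c, fun n => ?_, h2, fun x => ?_⟩
  · obtain ⟨s1, s2, ⟨lev, s3, s4⟩, s5⟩ := h1 n
    refine ⟨s1.trans (Nat.pow_le_pow_right (by omega) (Nat.le_add_left _ _)), s2,
      ⟨lev, fun g hg => (s3 g hg).trans_le (hle n), s4⟩, s5⟩
  · obtain ⟨s1, s2, ⟨lev, s3, s4⟩, s5⟩ := h1 x.length
    rw [h3 x]
    exact (C x.length).val_stable s4 x _ _ _ s2 (s3 _ s2) ((s3 _ s2).trans_le (hle _))

end Vale.Agent.P313.AC
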