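import Vale.Agent.P313.AC.FDef
import Vale.Agent.P313.AC.H577.Dec
import Vale.Agent.P313.AC.H577.Mono
import Vale.Agent.P313.AC.H577.ModE
import Vale.Agent.P313.AC.H577.ModE2

/-!
`BPL` is in logspace-uniform `AC^1`: the decision and the final assembly (piece F8).
-/

namespace Vale.Agent.P313.AC

open Finset

section dec

variable (D : Dat) (x : List Bool)

theorem apxx_eq : apxx D x = apE (D.p x.length) := by
  funext m v
  unfold apxx apE gBm gK0 gKb gB
  congr 1

variable {D}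

theorem vA0_eq (hD : D.Ok) : vA0 D x = base (D.p x.length) (nxt D x) := by
  funext u y
  have hG := hD.good x.length
  obtain ⟨q, hq⟩ := hG.hQ1
  have h1 : (D.p x.length).Q / 2 ^ ((D.p x.length).g0 + 1) = (D.p x.length).N * q := by
    rw [hq, mul_assoc, Nat.mul_div_cancel_left _ (by positivity)]
  have h2 : ((D.p x.length).Q - (D.p x.length).Q / 2 ^ (D.p x.length).g0) / 2 =
      (D.p x.length).Q / 2 ^ ((D.p x.length).g0 + 1) * (2 ^ (D.p x.length).g0 - 1) := by
    rw [h1]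
    have e : (D.p x.length).Q / 2 ^ (D.p x.length).g0 = 2 * ((D.p x.length).N * q) := by
      rw [hq, show 2 ^ ((D.p x.length).g0 + 1) * (D.p x.length).N * q =
        2 ^ (D.p x.length).g0 * (2 * ((D.p x.length).N * q)) by ring,
        Nat.mul_div_cancel_left _ (by positivity)]
    have e2 : (D.p x.length).Q = 2 ^ (D.p x.length).g0 * (2 * ((D.p x.length).N * q)) := by
      rw [hq]; ring
    have e3 : (D.p x.length).Q - 2 * ((D.p x.length).N * q) =
        2 * ((D.p x.length).N * q * (2 ^ (D.p x.length).g0 - 1)) := by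
      rw [e2, Nat.mul_sub_one]
      generalize 2 ^ (D.p x.length).g0 = X
      generalize (D.p x.length).N * q = Y
      rw [Nat.mul_sub, show X * (2 * Y) = 2 * (Y * X) by ring]
    rw [e, e3, Nat.mul_div_cancel_left _ (by norm_num)]
  unfold vA0 gA0 base nxt
  rw [h2, mul_comm]

theorem vA_eq (hD : D.Ok) (l t u y : ℕ) :
    vA D x l t u y = AE D.j0 (D.p x.length) (nxt D x) l t u y := by
  unfold vA AE gJ
  rw [apxx_eq, vA0_eq x hD]

theorem nxt_lt (hD : D.Ok) : ∀ u < (D.p x.length).N, ∀ b, nxt D x u b < (D.p x.length).N :=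
  fun u hu _ => hD.lnx _ _ _ u hu

/-- The approximations are bounded. -/
theorem bdd (h4 : ModC4) (hMD : ModD) (hE2 : ModE2) (hD : D.Ok) : Bdd D x := by
  intro l t u y hl ht ht2 hu hy
  rw [vA_eq x hD]
  exact AE_le h4 hMD hE2 (hD.good _) (nxt_lt x hD) hl ht ht2 hu hy

/-- The decision. -/
theorem vA_dec (h4 : ModC4) (hMD : ModD) (hE2 : ModE2) (hD : D.Ok) :
    (2 / 3 ≤ wp (nxt D x) (2 ^ (D.c * lam x.length)) (D.st x.length) 0 →
      (D.p x.length).Q ≤ 2 * vA D x (D.p x.length).L (D.p x.length).tm (D.st x.length) 0) ∧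
    (wp (nxt D x) (2 ^ (D.c * lam x.length)) (D.st x.length) 0 ≤ 1 / 3 →
      ¬ (D.p x.length).Q ≤
        2 * vA D x (D.p x.length).L (D.p x.length).tm (D.st x.length) 0) := by
  rw [vA_eq x hD]
  exact AE_dec h4 hMD hE2 (hD.good _) (nxt_lt x hD) (hD.lst _)

theorem four_lt (hD : D.Ok) (n : ℕ) : 4 < (n + 2) ^ D.e := by
  have h1 := hD.goodF.hR n
  have hτ : 2 ≤ (D.p n).τ := by have := (hD.good n).hτ; omega
  have hP : 1 ≤ (D.p n).P ^ 2 := Nat.one_le_pow _ _ (hD.good n).hP.pos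
  have h8 : 8 ^ 1 ≤ 8 ^ (D.p n).τ := Nat.pow_le_pow_right (by norm_num) (by omega)
  have h2 : 8 ≤ (D.p n).P ^ 2 * 8 ^ (D.p n).τ := by nlinarith
  have h3 : (D.p n).P ^ 2 * 8 ^ (D.p n).τ ≤ ((D.p n).P ^ 2 * 8 ^ (D.p n).τ) ^ 40 :=
    Nat.le_self_pow (by norm_num) _
  omega

/-- Time of the output. -/
def tO (D : Dat) (n : ℕ) : ℕ := rA D (D.p n).L (D.p n).tm + 1

theorem nf_tO (hD : D.Ok) : NF (fun a : Fin 1 → ℕ => tO D (a 0)) := by
  unfold NF tO rA
  exact ((((LF.const _).mul hD.goodF.nL).add ((LF.const _).mul hD.goodF.ntm)).add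
    (LF.const 1)).add (LF.const 1)

theorem tO_le (hD : D.Ok) (n : ℕ) : tO D n ≤
    ((15 * D.κ + 4 + 2 * D.j0) * D.e + 2) * Nat.log 2 (n + 2) +
      ((15 * D.κ + 4 + 2 * D.j0) * D.e + 2) := by
  have h := hD.goodF.hL n
  unfold tO rA
  unfold lam at h
  have h1 : 4 * D.κ * (D.p n).tm ≤ (15 * D.κ + 4 + 2 * D.j0) * (D.p n).tm :=
    Nat.mul_le_mul_right _ (by omega)
  have h2 : (15 * D.κ + 4 + 2 * D.j0) * ((D.p n).L + (D.p n).tm) ≤
      (15 * D.κ + 4 + 2 * D.j0) * (D.e * Nat.log 2 (n + 2)) := Nat.mul_le_mul_left _ h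
  generalize 15 * D.κ + 4 + 2 * D.j0 = K at *
  calc K * (D.p n).L + 4 * D.κ * (D.p n).tm + 1 + 1 ≤ K * ((D.p n).L + (D.p n).tm) + 2 := by
        rw [mul_add]; omega
    _ ≤ K * (D.e * Nat.log 2 (n + 2)) + 2 := by omega
    _ = K * D.e * Nat.log 2 (n + 2) + 2 := by rw [mul_assoc]
    _ ≤ (K * D.e + 2) * Nat.log 2 (n + 2) + (K * D.e + 2) := by
        rw [add_mul]; omega

theorem it_aO (hD : D.Ok) (hB : Bdd D x) (h7 : ModF7) :
    it (opF D) D.e x (tO D x.length) aO ↔
      (D.p x.length).Q ≤ 2 * vA D x (D.p x.length).L (D.p x.length).tm (D.st x.length) 0 := by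
  have hI := h7 D x hD hB (rA D (D.p x.length).L (D.p x.length).tm)
  have hG := hD.good x.length
  have h4 := four_lt hD x.length
  have ha : ∀ i, aO i < (x.length + 2) ^ D.e := by
    intro i
    have : aO i ≤ 4 := by
      unfold aO
      fin_cases i <;> simp
    omega
  have hV : vA D x (D.p x.length).L (D.p x.length).tm (D.st x.length) 0 <
      (x.length + 2) ^ D.e := by
    have h1 := hB (D.p x.length).L (D.p x.length).tm (D.st x.length) 0 le_rfl hG.htm le_rfl
      (hD.lst _) hG.N_pos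
    have h2 := hG.hV
    have h3 := hD.goodF.hV x.length
    have h5 := hG.Q_pos
    omega
  unfold tO
  show ((∀ i, aO i < (x.length + 2) ^ D.e) ∧ opF D x (it (opF D) D.e x _) aO) ↔ _
  have e0 : aO 0 = 4 := rfl
  have e1 : opF D x (it (opF D) D.e x (rA D (D.p x.length).L (D.p x.length).tm)) aO ↔
      opO D x (it (opF D) D.e x (rA D (D.p x.length).L (D.p x.length).tm)) aO := by
    unfold opF
    rw [e0]
    simp
  rw [e1]
  constructor
  · rintro ⟨_, v, hv, h1, h2⟩
    have := (hI.cA _ _ _ _ v le_rfl hG.htm le_rfl (hD.lst _) hG.N_pos hv le_rfl).1 h2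
    rw [← this]; exact h1
  · intro h
    exact ⟨ha, _, hV, h, (hI.cA _ _ _ _ _ le_rfl hG.htm le_rfl (hD.lst _) hG.N_pos hV le_rfl).2
      rfl⟩

end dec

/-- The final assembly. -/
theorem goal_of (hA : ModA) (h4 : ModC4) (hMD : ModD) (hG : ModG) (h1 : ModF1) (h7 : ModF7) :
    Goal := by
  intro A hBPL
  obtain ⟨c, st, ps, nx, hc, nst, nps, nnx, lst, lnx, hdec⟩ := modE A hBPL
  obtain ⟨κ, j0, e, p, hκ, hj, hgood, hgoodF⟩ := hG c hc
  set D : Dat := ⟨c, κ, j0, e, p, st, ps, nx⟩ with hDdef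
  have hD : D.Ok := by
    refine ⟨hκ, hj, hgood, hgoodF, nst, nps, nnx, fun n => ?_, fun n s b u hu => ?_⟩
    · show st n < (p n).N
      rw [(hgood n).hN]; exact lst n
    · have hu' : u < (p n).N := hu
      show nx n s u b < (p n).N
      rw [(hgood n).hN] at hu' ⊢
      exact lnx n s b u hu'
  have hU := hA 14 (opF D) D.e (tO D) (fun _ => aO) (h1 D hD) (nf_tO hD)
    (fun i => LF.const (aO i))
  have hAe : A = {x | it (opF D) D.e x (tO D x.length) aO} := by
    ext x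
    have hx := hdec x
    have hv := vA_dec x h4 hMD modE2 hD
    show x ∈ A ↔ it (opF D) D.e x (tO D x.length) aO
    rw [it_aO x hD (bdd x h4 hMD modE2 hD) h7]
    constructor
    · intro hxA
      exact hv.1 (hx.1 hxA)
    · intro h
      by_contra hxA
      exact hv.2 (hx.2 hxA) h
  rw [hAe]
  exact UAC.mono _ (fun n => tO_le hD n) hU

end Vale.Agent.P313.AC
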